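import Mathlib

/-!
# Bounded displacement actions on finitely many copies of the line
-/

namespace Vale.Agent.P196

/-- No nontrivial finite quotient. -/
def NoFiniteQuotient (G : Type*) [Group G] : Prop :=
  ∀ (Q : Type) [Group Q] [Finite Q] (φ : G →* Q), φ = 1

variable {n k : ℕ}

/-- The permutation of a signed letter. -/
def act {X : Type*} (σ : Fin n → Equiv.Perm X) (s : Fin n × Bool) : Equiv.Perm X :=
  cond s.2 (σ s.1) (σ s.1)⁻¹

theorem lift_apply {X : Type*} (σ : Fin n → Equiv.Perm X) (w : FreeGroup (Fin n)) :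
    FreeGroup.lift σ w = (w.toWord.map (act σ)).prod := by
  conv_lhs => rw [← FreeGroup.mk_toWord (x := w)]
  rw [FreeGroup.lift_mk]
  rfl

theorem word_disp {R : ℕ} (σ : Fin n → Equiv.Perm (ℤ × Fin k))
    (hR : ∀ s z, |(act σ s z).1 - z.1| ≤ R) (L : List (Fin n × Bool)) (z : ℤ × Fin k) :
    |((L.map (act σ)).prod z).1 - z.1| ≤ L.length * R := by
  induction L with
  | nil => simp
  | cons s L ih =>
    simp only [List.map_cons, List.prod_cons, Equiv.Perm.mul_apply, List.length_cons]
    have := hR s ((L.map (act σ)).prod z)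
    rw [abs_le] at this ih ⊢
    push_cast
    constructor <;> linarith

/-- A periodic piece of configuration gives an action on a finite cyclic strip. -/
theorem periodic_action {R B P : ℕ} (σ : Fin n → Equiv.Perm (ℤ × Fin k))
    (hR : ∀ s z, |(act σ s z).1 - z.1| ≤ R) (hBR : R ≤ B) [NeZero P] (p : ℤ)
    (hper : ∀ t : ℕ, t < 2 * B + 2 * R + 2 → ∀ s a,
      act σ s (p + t + P, a) = ((act σ s (p + t, a)).1 + P, (act σ s (p + t, a)).2)) :
    ∃ τ : Fin n → Equiv.Perm (ZMod P × Fin k),
      (∀ L : List (Fin n × Bool), L.length * R ≤ B → (L.map (act σ)).prod = 1 →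
        (L.map (act τ)).prod = 1) ∧
      ∀ i z, p + B ≤ z.1 → z.1 ≤ p + B + 2 * R →
        τ i ((z.1 : ZMod P), z.2) = (((σ i z).1 : ZMod P), (σ i z).2) := by
  have hP : 0 < P := Nat.pos_of_ne_zero (NeZero.ne P)
  set V : ℕ := 2 * B + 2 * R + 2 with hV
  let π : ℤ × Fin k → ZMod P × Fin k := fun z => ((z.1 : ZMod P), z.2)
  have hchain : ∀ t : ℕ, t < P + V → ∀ s a,
      π (act σ s (p + t, a)) = π (act σ s (p + (t % P : ℕ), a)) := by
    intro t
    induction t using Nat.strong_induction_on with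
    | _ t ih =>
      intro ht s a
      rcases lt_or_ge t P with h | h
      · rw [Nat.mod_eq_of_lt h]
      · have hmod : t % P = (t - P) % P := by
          conv_lhs => rw [← Nat.sub_add_cancel h, Nat.add_mod_right]
        rw [hmod, ← ih (t - P) (by omega) (by omega) s a]
        have e : (p + t : ℤ) = p + (t - P : ℕ) + P := by omega
        rw [e, hper (t - P) (by omega) s a]
        simp [π]
  have hcongr : ∀ x y : ℤ × Fin k, p ≤ x.1 → x.1 < p + P + V → p ≤ y.1 → y.1 < p + P + V →
      π x = π y → ∀ s, π (act σ s x) = π (act σ s y) := by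
    intro x y hx1 hx2 hy1 hy2 hxy s
    obtain ⟨h1, h2⟩ := Prod.mk.inj hxy
    have ex : x = (p + (x.1 - p).toNat, x.2) := by ext <;> simp [hx1]
    have ey : y = (p + (y.1 - p).toNat, y.2) := by ext <;> simp [hy1]
    have hmod : (x.1 - p).toNat % P = (y.1 - p).toNat % P := by
      have h3 : ((x.1 - p : ℤ) : ZMod P) = ((y.1 - p : ℤ) : ZMod P) := by
        push_cast; rw [h1]
      rw [ZMod.intCast_eq_intCast_iff'] at h3
      have hxn : ((x.1 - p).toNat : ℤ) = x.1 - p := Int.toNat_of_nonneg (by omega)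
      have hyn : ((y.1 - p).toNat : ℤ) = y.1 - p := Int.toNat_of_nonneg (by omega)
      rw [← hxn, ← hyn] at h3
      exact_mod_cast h3
    rw [ex, ey, hchain _ (by omega) s x.2, hchain _ (by omega) s y.2, hmod, h2]
  let rep : ZMod P × Fin k → ℤ × Fin k := fun y =>
    (p + B + ((y.1 - ((p + B : ℤ) : ZMod P)).val : ℤ), y.2)
  have hrep : ∀ y, π (rep y) = y := fun y => by
    ext <;> simp [π, rep]
  have hrep1 : ∀ y, p + B ≤ (rep y).1 ∧ (rep y).1 < p + B + P := fun y => by
    have := ZMod.val_lt (y.1 - ((p + B : ℤ) : ZMod P))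
    constructor <;> simp only [rep] <;> omega
  let f : Fin n × Bool → ZMod P × Fin k → ZMod P × Fin k := fun s y => π (act σ s (rep y))
  have hkey : ∀ s x, p ≤ x.1 → x.1 < p + P + V → f s (π x) = π (act σ s x) := by
    intro s x h1 h2
    have := hrep1 (π x)
    exact hcongr _ _ (by omega) (by omega) h1 h2 (hrep (π x)) s
  have hinv : ∀ i b y, f (i, !b) (f (i, b) y) = y := by
    intro i b y
    have h1 := hrep1 y
    have h2 := abs_le.mp (hR (i, b) (rep y))
    rw [show f (i, b) y = π (act σ (i, b) (rep y)) from rfl,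
      hkey _ _ (by omega) (by omega)]
    cases b <;> simp [act, hrep]
  let τ : Fin n → Equiv.Perm (ZMod P × Fin k) := fun i =>
    { toFun := f (i, true)
      invFun := f (i, false)
      left_inv := hinv i true
      right_inv := hinv i false }
  have hτ : ∀ s y, act τ s y = f s y := fun s y => by
    obtain ⟨i, b⟩ := s
    cases b <;> rfl
  refine ⟨τ, ?_, fun i z h1 h2 => ?_⟩
  · intro L hLB hL
    have hword : ∀ M : List (Fin n × Bool), ∀ x : ℤ × Fin k, p + M.length * R ≤ x.1 →
        x.1 + M.length * R < p + P + V →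
        (M.map (act τ)).prod (π x) = π ((M.map (act σ)).prod x) := by
      intro M
      induction M with
      | nil => intro x _ _; simp
      | cons s M ih =>
        intro x h1 h2
        simp only [List.length_cons, Nat.cast_add, Nat.cast_one, add_mul, one_mul] at h1 h2
        have hd := abs_le.mp (word_disp σ hR M x)
        simp only [List.map_cons, List.prod_cons, Equiv.Perm.mul_apply]
        rw [ih x (by omega) (by omega), hτ, hkey s _ (by omega) (by omega)]
    refine Equiv.ext fun y => ?_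
    have hy := hrep1 y
    have hLB' : (L.length : ℤ) * R ≤ B := by exact_mod_cast hLB
    calc (L.map (act τ)).prod y = (L.map (act τ)).prod (π (rep y)) := by rw [hrep]
      _ = π ((L.map (act σ)).prod (rep y)) := hword L _ (by omega) (by omega)
      _ = y := by rw [hL, Equiv.Perm.one_apply, hrep]
  · exact hkey (i, true) z (by omega) (by omega)

/-- The triviality of bounded actions on the line. -/
theorem exists_fixed_window {G : Type*} [Group G] (hQ : NoFiniteQuotient G)
    (φ : FreeGroup (Fin n) →* G) (hφ : Function.Surjective φ) (S : Set (FreeGroup (Fin n)))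
    (hS : S.Finite) (hker : Subgroup.normalClosure S = φ.ker) {R : ℕ}
    (σ : Fin n → Equiv.Perm (ℤ × Fin k)) (hR : ∀ s z, |(act σ s z).1 - z.1| ≤ R)
    (hrel : ∀ w ∈ φ.ker, FreeGroup.lift σ w = 1) (i0 : ℤ) :
    ∃ i ≥ i0, ∀ (j : Fin n) (z : ℤ × Fin k), i ≤ z.1 → z.1 ≤ i + 2 * R → σ j z = z := by
  classical
  by_contra hcon
  simp only [not_exists, not_and, not_forall] at hcon
  set B : ℕ := (hS.toFinset.sup fun w => w.toWord.length) * R + R with hB
  set V : ℕ := 2 * B + 2 * R + 2 with hV
  let pat : ℕ → (Fin V → Fin n × Bool → Fin k → ↥(Finset.Icc (-(R : ℤ)) R) × Fin k) :=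
    fun j t s a =>
      (⟨(act σ s (i0 + j * (R + 1) + t.val, a)).1 - (i0 + j * (R + 1) + t.val),
        Finset.mem_Icc.mpr (abs_le.mp (hR s _))⟩,
        (act σ s (i0 + j * (R + 1) + t.val, a)).2)
  obtain ⟨j, j', hne, heq⟩ := Finite.exists_ne_map_eq_of_infinite pat
  wlog hlt : j < j' generalizing j j'
  · exact this j' j hne.symm heq.symm (by omega)
  set P : ℕ := (j' - j) * (R + 1) with hP
  have hPR : R + 1 ≤ P := Nat.le_mul_of_pos_left _ (by omega)
  have : NeZero P := ⟨by omega⟩
  set p : ℤ := i0 + j * (R + 1) with hp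
  have hsum : ∀ t : ℕ, p + t + P = i0 + j' * (R + 1) + t := fun t => by
    rw [hp, hP, Nat.cast_mul, Nat.cast_sub hlt.le]; push_cast; ring
  obtain ⟨τ, hτ1, hτ2⟩ := periodic_action σ hR (by omega) p (B := B) (P := P) (fun t ht s a => by
    have h := congrFun (congrFun (congrFun heq ⟨t, ht⟩) s) a
    simp only [pat, Prod.mk.injEq, Subtype.mk.injEq] at h
    rw [hsum t]
    have e : p + t = i0 + j * (R + 1) + t := by rw [hp]
    rw [e]
    ext
    · have := hsum t
      dsimp only
      omega
    · exact congrArg Fin.val h.2.symm)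
  have hle : φ.ker ≤ (FreeGroup.lift τ).ker := by
    rw [← hker]
    refine Subgroup.normalClosure_le_normal fun w hw => ?_
    rw [SetLike.mem_coe, MonoidHom.mem_ker, lift_apply]
    refine hτ1 _ ?_ ?_
    · have := Finset.le_sup (f := fun w : FreeGroup (Fin n) => w.toWord.length)
        (hS.mem_toFinset.mpr hw)
      calc w.toWord.length * R ≤ (hS.toFinset.sup fun w => w.toWord.length) * R :=
            Nat.mul_le_mul_right _ this
        _ ≤ B := by omega
    · rw [← lift_apply]
      exact hrel w (hker ▸ Subgroup.subset_normalClosure hw)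
  have hone := hQ (Equiv.Perm (ZMod P × Fin k)) (φ.liftOfSurjective hφ ⟨_, hle⟩)
  have htriv : ∀ i, τ i = 1 := fun i => by
    have h := DFunLike.congr_fun hone (φ (FreeGroup.of i))
    rw [MonoidHom.liftOfRightInverse_comp_apply] at h
    simpa using h
  have hp0 : i0 ≤ p + B := by
    have : (0 : ℤ) ≤ j * (R + 1) := by positivity
    omega
  obtain ⟨i, z, h1, h2, h3⟩ := hcon (p + B) hp0
  apply h3
  have h := hτ2 i z h1 h2
  rw [htriv, Equiv.Perm.one_apply, Prod.mk.injEq] at h
  have hd := abs_le.mp (hR (i, true) z)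
  change -(R : ℤ) ≤ (σ i z).1 - z.1 ∧ (σ i z).1 - z.1 ≤ R at hd
  have hdvd : (P : ℤ) ∣ (σ i z).1 - z.1 := by
    rw [← ZMod.intCast_zmod_eq_zero_iff_dvd]
    push_cast
    rw [h.1, sub_self]
  ext
  · have := Int.eq_zero_of_abs_lt_dvd hdvd (by rw [abs_lt]; omega)
    omega
  · exact congrArg Fin.val h.2.symm

/-- Reflection of the line. -/
def flip : (ℤ × Fin k) ≃ (ℤ × Fin k) := (Equiv.neg ℤ).prodCongr (Equiv.refl _)

theorem trivial_of_bounded {G : Type*} [Group G] [hG : Group.IsFinitelyPresented G]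
    (hQ : NoFiniteQuotient G) (ρ : G →* Equiv.Perm (ℤ × Fin k))
    (hb : ∀ g, ∃ R : ℕ, ∀ z, |(ρ g z).1 - z.1| ≤ R) : ρ = 1 := by
  classical
  obtain ⟨n, φ, hφ, S, hS, hker⟩ := hG.out
  choose R hR using fun s : Fin n × Bool => hb (φ (FreeGroup.mk [s]))
  set R0 : ℕ := Finset.univ.sup R
  set σ : Fin n → Equiv.Perm (ℤ × Fin k) := fun i => ρ (φ (FreeGroup.of i)) with hσ
  have hlift : FreeGroup.lift σ = ρ.comp φ := by
    ext i : 1
    simp [σ]
  have hact : ∀ s, act σ s = ρ (φ (FreeGroup.mk [s])) := fun s => by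
    have h := DFunLike.congr_fun hlift (FreeGroup.mk [s])
    rw [FreeGroup.lift_mk] at h
    simpa [act] using h
  have hR0 : ∀ s z, |(act σ s z).1 - z.1| ≤ R0 := fun s z => by
    rw [hact]
    exact (hR s z).trans (by exact_mod_cast Finset.le_sup (Finset.mem_univ s))
  have hrel : ∀ w ∈ φ.ker, FreeGroup.lift σ w = 1 := fun w hw => by
    rw [hlift, MonoidHom.comp_apply, MonoidHom.mem_ker.mp hw, map_one]
  set σ' : Fin n → Equiv.Perm (ℤ × Fin k) := fun i => flip.permCongr (σ i) with hσ'
  have hlift' : FreeGroup.lift σ' = (flip.permCongrHom.toMonoidHom).comp (FreeGroup.lift σ) := by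
    ext i : 1
    simp [σ']
  have hR' : ∀ s z, |(act σ' s z).1 - z.1| ≤ R0 := by
    rintro ⟨i, b⟩ z
    have h := hR0 (i, b) (flip z)
    cases b <;> simp [act, σ', flip, Equiv.Perm.inv_def] at h ⊢ <;>
      (rw [abs_le] at h ⊢; omega)
  have hrel' : ∀ w ∈ φ.ker, FreeGroup.lift σ' w = 1 := fun w hw => by
    rw [hlift', MonoidHom.comp_apply, hrel w hw, map_one]
  refine MonoidHom.ext fun g => Equiv.ext fun z => ?_
  obtain ⟨h, hh1, hh2⟩ := exists_fixed_window hQ φ hφ S hS hker σ hR0 hrel (z.1 + 1)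
  obtain ⟨l', hl1, hl2⟩ := exists_fixed_window hQ φ hφ S hS hker σ' hR' hrel' (-z.1 + 1)
  have hl3 : ∀ (j : Fin n) (y : ℤ × Fin k), -l' - 2 * R0 ≤ y.1 → y.1 ≤ -l' → σ j y = y := by
    intro j y h1 h2
    have := hl2 j (flip y) (by simp [flip]; omega) (by simp [flip]; omega)
    apply flip.injective
    simpa [σ', flip, Equiv.permCongr_apply, Prod.map] using this
  let T : Set (ℤ × Fin k) := {y | -l' < y.1 ∧ y.1 < h}
  have hTs : ∀ s y, y ∈ T → act σ s y ∈ T := by
    intro s y hy
    have hd := abs_le.mp (hR0 s y)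
    have hne : ∀ x, (∀ j, σ j x = x) → act σ s y = x → y = x := by
      rintro x hx e
      obtain ⟨i, b⟩ := s
      cases b
      · rw [← hx i] at e
        simpa [act, Equiv.Perm.inv_def, Equiv.symm_apply_eq, hx i] using e
      · exact (σ i).injective (e.trans (hx i).symm)
    obtain ⟨hy1, hy2⟩ := hy
    by_contra hout
    have hout' : ¬ (-l' < (act σ s y).1 ∧ (act σ s y).1 < h) := hout
    rcases not_and_or.mp hout' with hc | hc
    · have := hne _ (fun j => hl3 j _ (by omega) (by omega)) rfl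
      rw [← this] at hc; omega
    · have := hne _ (fun j => hh2 j _ (by omega) (by omega)) rfl
      rw [← this] at hc; omega
  have hT : ∀ g y, y ∈ T → ρ g y ∈ T := by
    intro g
    obtain ⟨w, rfl⟩ := hφ g
    rw [← FreeGroup.mk_toWord (x := w), ← MonoidHom.comp_apply, ← hlift, FreeGroup.lift_mk]
    change ∀ y, y ∈ T → ((w.toWord.map (act σ)).prod) y ∈ T
    induction w.toWord with
    | nil => exact fun y hy => by simpa using hy
    | cons s L ih =>
      intro y hy
      simpa using hTs s _ (ih y hy)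
  have : Finite T := by
    refine Set.Finite.to_subtype (((Set.finite_Icc (-l') h).prod Set.finite_univ).subset ?_)
    exact fun y hy => ⟨⟨hy.1.le, hy.2.le⟩, Set.mem_univ _⟩
  have hTiff : ∀ g y, ρ g y ∈ T ↔ y ∈ T := fun g y => ⟨fun hy => by
    have := hT g⁻¹ _ hy
    simpa using this, hT g y⟩
  let ψ : G →* Equiv.Perm T :=
    { toFun := fun g => (ρ g).subtypePerm (hTiff g)
      map_one' := Equiv.ext fun y => by simp
      map_mul' := fun a b => Equiv.ext fun y => Subtype.ext
        ((congrArg (fun r : Equiv.Perm (ℤ × Fin k) => r y.1) (ρ.map_mul a b)).trans rfl) }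
  obtain ⟨m, ⟨e⟩⟩ := Finite.exists_equiv_fin T
  have h1 := hQ (Equiv.Perm (Fin m)) (e.permCongrHom.toMonoidHom.comp ψ)
  have h2 : ψ g = 1 := e.permCongrHom.injective
    ((DFunLike.congr_fun h1 g).trans e.permCongrHom.map_one.symm)
  have hz : z ∈ T := ⟨by omega, by omega⟩
  exact congrArg Subtype.val (DFunLike.congr_fun h2 (⟨z, hz⟩ : T))

end Vale.Agent.P196
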