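import Vale.Agent.P192.Ends.Orbit
import Vale.Agent.P196.Line

/-!
# Finitely presented groups without finite quotients and exhaustions with bounded boundary
-/

namespace Vale.Agent.P196

open Vale.Agent.P192.Ends

/-- An action on a finite set of a group without finite quotients is trivial. -/
theorem trivial_of_finite {G : Type*} [Group G] (hQ : NoFiniteQuotient G) {Y : Type*} [Finite Y]
    (f : G →* Equiv.Perm Y) : f = 1 := by
  obtain ⟨N, ⟨e⟩⟩ := Finite.exists_equiv_fin Y
  have h := hQ (Equiv.Perm (Fin N)) (e.permCongrHom.toMonoidHom.comp f)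
  refine MonoidHom.ext fun g => ?_
  have h2 : e.permCongrHom (f g) = e.permCongrHom 1 := by
    rw [map_one]
    exact DFunLike.congr_fun h g
  exact e.permCongrHom.injective h2

/-- A finitely presented group without finite quotients acts trivially if every infinite orbit has
a finite exhaustion with boundedly many crossings per element. -/
theorem trivial_of_exhaustion {G : Type*} [Group G] [Group.IsFinitelyPresented G]
    (hQ : NoFiniteQuotient G) {X : Type*} (ρ : G →* Equiv.Perm X)
    (hF : ∀ x : X, (Set.range fun g => ρ g x).Infinite → ∃ F : ℕ → Finset X, Monotone F ∧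
      (∀ g, ∃ t, ρ g x ∈ F t) ∧
      ∀ g, ∃ w : ℕ, ∀ t, {y | y ∈ F t ∧ ρ g y ∉ F t}.encard ≤ (w : ℕ∞)) : ρ = 1 := by
  classical
  have key : ∀ x, (Set.range fun g => ρ g x).Finite := by
    intro x
    by_contra hinf
    obtain ⟨F, hmono, hcov, hcr⟩ := hF x hinf
    let Y := {y // ∃ g, ρ g x = y}
    let A : ℕ → Set Y := fun t => {y | y.1 ∉ F t}
    have hcr' : ∀ g, ∃ w : ℕ, ∀ t,
        {y | y ∈ A t ∧ orbitHom ρ x g y ∉ A t}.encard ≤ (w : ℕ∞) := by
      intro g
      obtain ⟨w, hw⟩ := hcr g⁻¹
      refine ⟨w, fun t => le_trans ?_ (hw t)⟩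
      have hinj : Function.Injective fun y : Y => ρ g y.1 := fun a b h =>
        Subtype.ext ((ρ g).injective h)
      rw [← hinj.encard_image]
      refine Set.encard_le_encard ?_
      rintro _ ⟨y, ⟨hy1, hy2⟩, rfl⟩
      refine ⟨not_not.1 hy2, ?_⟩
      change ρ g⁻¹ (ρ g y.1) ∉ F t
      rw [map_inv]
      simpa [A] using hy1
    obtain ⟨i, j, -, ψ, hsh, g0, z0, hg0⟩ := splice_crossing (orbitHom ρ x)
      (orbitHom_transitive ρ x) A (fun t t' h y hy hm => hy (hmono h hm)) (fun t => by
        by_contra hne
        refine hinf ((F t).finite_toSet.subset ?_)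
        rintro _ ⟨g, rfl⟩
        by_contra hy
        exact hne ⟨⟨ρ g x, g, rfl⟩, hy⟩)
      (fun ⟨y, g, hg⟩ => by
        obtain ⟨t, ht⟩ := hcov g
        exact ⟨t, fun h => h (hg ▸ ht)⟩) hcr'
    have : Finite {y // y ∈ A i \ A j} :=
      ((((F j).finite_toSet.preimage Subtype.val_injective.injOn).subset
        fun y hy => not_not.1 hy.2)).to_subtype
    have heq : ∀ g m z, ψ g (m, z) = (m + (ψ g (0, z)).1, (ψ g (0, z)).2) := fun g m z => by
      simpa [sh] using hsh g m (0, z)
    have hmul : ∀ g h z, ψ (g * h) (0, z) =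
        ((ψ h (0, z)).1 + (ψ g (0, (ψ h (0, z)).2)).1, (ψ g (0, (ψ h (0, z)).2)).2) := fun g h z => by
      rw [map_mul, Equiv.Perm.mul_apply, ← heq]
    let χ : G →* Equiv.Perm {y // y ∈ A i \ A j} :=
      { toFun := fun g =>
          { toFun := fun z => (ψ g (0, z)).2
            invFun := fun z => (ψ g⁻¹ (0, z)).2
            left_inv := fun z => by
              have := congrArg Prod.snd (hmul g⁻¹ g z)
              simpa using this.symm
            right_inv := fun z => by
              have := congrArg Prod.snd (hmul g g⁻¹ z)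
              simpa using this.symm }
        map_one' := Equiv.ext fun z => by simp
        map_mul' := fun g h => Equiv.ext fun z => by
          change (ψ (g * h) (0, z)).2 = _
          rw [hmul]
          rfl }
    have hfix : ∀ g z, (ψ g (0, z)).2 = z := fun g z => by
      have := DFunLike.congr_fun (trivial_of_finite hQ χ) g
      exact (DFunLike.congr_fun this z :)
    let c : G →* Multiplicative (ZMod 2) :=
      { toFun := fun g => Multiplicative.ofAdd ((ψ g (0, z0)).1 : ZMod 2)
        map_one' := by simp
        map_mul' := fun g h => by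
          rw [hmul, hfix, ← ofAdd_add]
          push_cast
          rw [add_comm] }
    have h1 := DFunLike.congr_fun (hQ _ c) g0
    simp [c, hg0] at h1
  refine MonoidHom.ext fun g => Equiv.ext fun x => ?_
  have : Finite {y // ∃ g, ρ g x = y} := (key x).to_subtype
  have h := DFunLike.congr_fun (DFunLike.congr_fun (trivial_of_finite hQ (orbitHom ρ x)) g)
    (⟨x, 1, by simp⟩ : {y // ∃ g, ρ g x = y})
  exact congrArg Subtype.val h

end Vale.Agent.P196
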