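import Vale.Agent.P196.Line

/-!
# Full groups of integer systems
-/

namespace Vale.Agent.P196

theorem trivial_in_full_group {G : Type*} [Group G] [Group.IsFinitelyPresented G]
    (hQ : NoFiniteQuotient G) {X : Type*} (T : Equiv.Perm X) (ρ : G →* Equiv.Perm X)
    (hb : ∀ g, ∃ R : ℕ, ∀ x, ∃ m : ℤ, |m| ≤ R ∧ ρ g x = (T ^ m) x) : ρ = 1 := by
  classical
  refine MonoidHom.ext fun g => Equiv.ext fun x => ?_
  let O : Set X := Set.range fun i : ℤ => (T ^ i) x
  have hO : ∀ g y, ρ g y ∈ O ↔ y ∈ O := by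
    have h1 : ∀ g y, y ∈ O → ρ g y ∈ O := by
      intro g y hy
      obtain ⟨i, rfl⟩ := hy
      obtain ⟨R, hR⟩ := hb g
      obtain ⟨m, -, hm⟩ := hR ((T ^ i) x)
      exact ⟨m + i, by simp only; rw [hm, zpow_add, Equiv.Perm.mul_apply]⟩
    exact fun g y => ⟨fun hy => by simpa using h1 g⁻¹ _ hy, h1 g y⟩
  let ψ : G →* Equiv.Perm O :=
    { toFun := fun g => (ρ g).subtypePerm (hO g)
      map_one' := Equiv.ext fun y => by simp
      map_mul' := fun a b => Equiv.ext fun y => Subtype.ext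
        ((congrArg (fun r : Equiv.Perm X => r y.1) (ρ.map_mul a b)).trans rfl) }
  have hx : x ∈ O := ⟨0, by simp⟩
  suffices ψ g = 1 from congrArg Subtype.val (DFunLike.congr_fun this (⟨x, hx⟩ : O))
  by_cases hper : ∃ P : ℕ, 0 < P ∧ (T ^ (P : ℤ)) x = x
  · obtain ⟨P, hP, hPx⟩ := hper
    have : Finite O := by
      refine Set.Finite.to_subtype (((Set.finite_Ico (0 : ℤ) P).image
        fun i => (T ^ i) x).subset ?_)
      rintro _ ⟨i, rfl⟩
      refine ⟨i % P, ⟨Int.emod_nonneg _ (by omega), Int.emod_lt_of_pos _ (by omega)⟩, ?_⟩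
      have hfix : ((T ^ (P : ℤ)) ^ (i / P)) x = x := Equiv.Perm.zpow_apply_eq_self_of_apply_eq_self hPx _
      simp only
      conv_rhs => rw [← Int.emod_add_mul_ediv i P, zpow_add, Equiv.Perm.mul_apply, zpow_mul, hfix]
    obtain ⟨m, ⟨e⟩⟩ := Finite.exists_equiv_fin O
    have h1 := hQ (Equiv.Perm (Fin m)) (e.permCongrHom.toMonoidHom.comp ψ)
    exact e.permCongrHom.injective ((DFunLike.congr_fun h1 g).trans e.permCongrHom.map_one.symm)
  · have hinj : Function.Injective fun i : ℤ => (T ^ i) x := by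
      intro i j hij
      by_contra hne
      wlog hlt : i < j generalizing i j
      · exact this hij.symm (Ne.symm hne) (by omega)
      refine hper ⟨(j - i).toNat, by omega, ?_⟩
      rw [Int.toNat_of_nonneg (by omega), sub_eq_neg_add, zpow_add, Equiv.Perm.mul_apply]
      simp only at hij
      rw [← hij, ← Equiv.Perm.mul_apply, ← zpow_add, neg_add_cancel, zpow_zero]
      rfl
    let e : ℤ × Fin 1 ≃ O := (Equiv.prodUnique ℤ (Fin 1)).trans (Equiv.ofInjective _ hinj)
    have h1 := trivial_of_bounded hQ (e.symm.permCongrHom.toMonoidHom.comp ψ) fun a => by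
      obtain ⟨R, hR⟩ := hb a
      refine ⟨R, fun z => ?_⟩
      obtain ⟨m, hm, hm'⟩ := hR ((T ^ z.1) x)
      have he : e (m + z.1, z.2) = ψ a (e z) := by
        apply Subtype.ext
        change (T ^ (m + z.1)) x = ρ a ((T ^ z.1) x)
        rw [hm', zpow_add, Equiv.Perm.mul_apply]
      have : (e.symm.permCongrHom.toMonoidHom.comp ψ) a z = (m + z.1, z.2) :=
        (Equiv.symm_apply_eq e).mpr he.symm
      rw [this]
      simpa using hm
    exact e.symm.permCongrHom.injective
      ((DFunLike.congr_fun h1 g).trans e.symm.permCongrHom.map_one.symm)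

end Vale.Agent.P196
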